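import Vale.Agent.P319.Stmt
import Vale.Agent.Lib.Dep.Adjoin
import Vale.Agent.Lib.PolyTime.TypedTM2
import Mathlib.Data.List.Dedup
import Mathlib.Algebra.BigOperators.Group.List.Lemmas

/-!
P319: from a polynomial time function which lists the monic irreducible factors (with repetitions)
to the Turing machine of the final statement.
-/

open Polynomial

namespace Vale.Agent.P319

open Vale.Agent.Lib.PolyTime hiding C P
open Vale.Agent.Lib.Dep Stmt

/-- primes as data -/
abbrev Pr : Type := {p : ℕ // p.Prime}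

instance (p : Pr) : Fact p.1.Prime := ⟨p.2⟩

/-- the inputs -/
abbrev Inp : Type := Σ p : Pr, (ZMod p.1)[X]

/-- The statement: a machine which factors polynomials over prime fields in polynomial time. -/
def Goal : Prop :=
  ∃ (M : Turing.TM2ComputableAux Bool Bool) (c : ℕ), (∀ k, Finite (M.tm.Γ k)) ∧
    ∀ p : ℕ, p.Prime → ∀ f : (ZMod p)[X], f ≠ 0 →
      ∃ L : List ((ZMod p)[X] × ℕ),
        f = C f.leadingCoeff * (L.map fun q => q.1 ^ q.2).prod ∧
        (∀ q ∈ L, q.1.Monic ∧ Irreducible q.1 ∧ 0 < q.2) ∧ (L.map Prod.fst).Nodup ∧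
        Nonempty (Turing.TM2OutputsInTime M.tm ((codeInput p f).map M.inputAlphabet.symm)
          (some ((codeOutput f.leadingCoeff L).map M.outputAlphabet.symm))
          (c * ((f.natDegree + 1) * Nat.clog 2 p) ^ c))

theorem pair_eq (x y : List Bool) : pair x y = pr x y := by
  induction x with
  | nil => rfl
  | cons b x ih => rw [pair, pr, ih]

theorem codeList_eq {κ : Type} [Enc κ] (l : List κ) : codeList (l.map enc) = enc l := by
  induction l with
  | nil => rfl
  | cons a l ih => rw [List.map_cons, codeList, enc_cons, ih, pair_eq]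

theorem codePoly_eq {p : ℕ} [NeZero p] (f : (ZMod p)[X]) : codePoly f = enc f := by
  rw [enc_poly, ← codeList_eq, toL, List.map_map]
  rfl

theorem codeInput_eq (x : Inp) : codeInput x.1.1 x.2 = enc x := by
  rw [codeInput, codePoly_eq, pair_eq]
  rfl

theorem codeOutput_eq {p : ℕ} [NeZero p] (c : ZMod p) (L : List ((ZMod p)[X] × ℕ)) :
    codeOutput c L = enc (c, L) := by
  rw [codeOutput, enc_pair, ← codeList_eq, pair_eq]
  congr 2
  exact List.map_congr_left fun q _ => by rw [pair_eq, codePoly_eq]; rfl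

theorem size_le_clog {p : ℕ} (hp : 2 ≤ p) : Nat.size p ≤ 2 * Nat.clog 2 p := by
  have h1 : p ≤ 2 ^ Nat.clog 2 p := Nat.le_pow_clog (by norm_num) p
  have h2 : 0 < Nat.clog 2 p := Nat.clog_pos (by norm_num) hp
  refine Nat.size_le.2 (h1.trans_lt (Nat.pow_lt_pow_right (by norm_num) (by omega)))

theorem esize_inp_le (x : Inp) : esize x ≤ 10 * ((x.2.natDegree + 1) * Nat.clog 2 x.1.1) := by
  have h1 := size_le_clog x.1.2.two_le
  have h2 : 0 < Nat.clog 2 x.1.1 := Nat.clog_pos (by norm_num) x.1.2.two_le
  have h3 : esize x.2 ≤ (x.2.natDegree + 1) * (2 * (2 * Nat.clog 2 x.1.1) + 1) := by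
    rw [← length_toL]
    refine esize_list_le (l := toL x.2) fun c _ => ?_
    exact ((esize_nat_mono (ZMod.val_lt c).le).trans (esize_nat _).le).trans h1
  have h4 : esize x.1 = Nat.size x.1.1 := esize_nat _
  rw [esize_sigma, h4]
  nlinarith [Nat.zero_le x.2.natDegree, Nat.zero_le (x.2.natDegree * Nat.clog 2 x.1.1)]

theorem exists_bound (T : Polynomial ℕ) : ∃ c, ∀ m n, 1 ≤ m → n ≤ 10 * m → T.eval n ≤ c * m ^ c := by
  obtain ⟨d, hd⟩ := PB.of_polynomial T
  refine ⟨12 ^ d + d, fun m n hm hn => (hd n).trans ?_⟩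
  calc (n + 2) ^ d ≤ (12 * m) ^ d := Nat.pow_le_pow_left (by omega) d
    _ = 12 ^ d * m ^ d := mul_pow _ _ _
    _ ≤ (12 ^ d + d) * m ^ (12 ^ d + d) :=
      Nat.mul_le_mul (Nat.le_add_right _ _) (Nat.pow_le_pow_right hm (Nat.le_add_left _ _))

open Classical in
/-- equal entries are collected -/
noncomputable def collect {κ : Type} (l : List κ) : List (κ × ℕ) :=
  (l.foldl (fun s x => if x ∈ s then s else x :: s) []).map fun x =>
    (x, (l.filter fun y => decide (y = x)).length)

open Classical in
theorem collect_aux {κ : Type} (l s : List κ) (hs : s.Nodup) :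
    (l.foldl (fun s x => if x ∈ s then s else x :: s) s).Nodup ∧
      (∀ x, x ∈ l.foldl (fun s x => if x ∈ s then s else x :: s) s ↔ x ∈ l ∨ x ∈ s) := by
  induction l generalizing s with
  | nil => simp [hs]
  | cons y l ih =>
    rw [List.foldl_cons]
    split_ifs with h
    · obtain ⟨h1, h2⟩ := ih s hs
      refine ⟨h1, fun x => (h2 x).trans ?_⟩
      rw [List.mem_cons]
      constructor
      · tauto
      · rintro ((rfl | h3) | h3) <;> tauto
    · obtain ⟨h1, h2⟩ := ih (y :: s) (List.nodup_cons.2 ⟨h, hs⟩)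
      refine ⟨h1, fun x => (h2 x).trans ?_⟩
      simp only [List.mem_cons]
      tauto

theorem collect_nodup {κ : Type} (l : List κ) : ((collect l).map Prod.fst).Nodup := by
  rw [collect, List.map_map]
  simpa [Function.comp_def] using (collect_aux l [] List.nodup_nil).1

theorem mem_collect {κ : Type} {l : List κ} {q : κ × ℕ} (h : q ∈ collect l) :
    q.1 ∈ l ∧ 0 < q.2 := by
  classical
  obtain ⟨x, hx, rfl⟩ := List.mem_map.1 h
  have hx' : x ∈ l := by simpa using ((collect_aux l [] List.nodup_nil).2 x).1 hx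
  exact ⟨hx', List.length_pos_of_mem (a := x) (by simp [hx'])⟩

theorem prod_collect {κ : Type} [CommMonoid κ] (l : List κ) :
    ((collect l).map fun q => q.1 ^ q.2).prod = l.prod := by
  classical
  obtain ⟨h1, h2⟩ := collect_aux l [] List.nodup_nil
  rw [collect, List.map_map, ← List.prod_toFinset _ (by convert h1), Finset.prod_list_count]
  refine Finset.prod_congr ?_ fun x _ => ?_
  · ext x
    simpa using h2 x
  · simp only [Function.comp]
    congr 1
    rw [List.count_eq_length_filter]
    congr 2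

@[fun_prop]
theorem dpt_collect {α : Type} [Enc α] {β : α → Type} [∀ a, Enc (β a)] [∀ a, EncInj (β a)]
    {l : ∀ a, List (β a)} (hl : DPT l) : DPT (fun a => collect (l a)) := by
  classical
  have h1 : DPT (fun a => (l a).foldl (fun s x => if x ∈ s then s else x :: s) []) := by
    refine DPT.foldl hl DPT.nil (by fun_prop) hl.pbd fun a i => ?_
    have key : ∀ (t s : List (β a)),
        esize (t.foldl (fun s x => if x ∈ s then s else x :: s) s) ≤ esize t + esize s := by
      intro t
      induction t with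
      | nil => intro s; simp
      | cons y t ih =>
        intro s
        rw [List.foldl_cons]
        refine (ih _).trans ?_
        split_ifs <;> simp only [esize_list_cons] <;> omega
    exact (key _ _).trans (esize_take_le _ _)
  unfold collect
  refine DPT.map (by convert h1) ?_
  fun_prop

/-- The final statement follows from a polynomial time list of the irreducible factors. -/
theorem goal_of (F : ∀ x : Inp, List (ZMod x.1.1)[X]) (hF : DPT F)
    (h : ∀ x : Inp, x.2 ≠ 0 → C x.2.leadingCoeff * (F x).prod = x.2 ∧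
      ∀ g ∈ F x, g.Monic ∧ Irreducible g) : Goal := by
  have h1 : DPT (fun x : Inp => (x.2.leadingCoeff, collect (F x))) := by fun_prop
  obtain ⟨M, hM⟩ := PT.exists_tm2 h1.rawPT
  obtain ⟨c, hc⟩ := exists_bound M.time
  refine ⟨M.toTM2ComputableAux, c, hM, fun p hp f hf => ?_⟩
  let x : Inp := ⟨⟨p, hp⟩, f⟩
  obtain ⟨h2, h3⟩ := h x hf
  refine ⟨collect (F x), ?_, fun q hq => ?_, collect_nodup _, ⟨?_⟩⟩
  · rw [prod_collect]
    exact h2.symm
  · obtain ⟨h4, h5⟩ := mem_collect hq
    exact ⟨(h3 _ h4).1, (h3 _ h4).2, h5⟩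
  · have h4 := M.outputsFun x
    have : NeZero p := ⟨hp.ne_zero⟩
    rw [codeOutput_eq, show codeInput p f = enc x from codeInput_eq x]
    refine ⟨h4.toEvalsTo, h4.steps_le_m.trans (hc _ _ ?_ (esize_inp_le x))⟩
    exact Nat.mul_pos (Nat.succ_pos _) (Nat.clog_pos (by norm_num) hp.two_le)

end Vale.Agent.P319
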