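import Vale.Agent.P319.Alg.Final
import Vale.Agent.P319.Alg.ChainSpec
import Vale.Agent.P319.Alg.Tower
import Vale.Agent.P319.Alg.CurvePT
import Vale.Agent.P319.Alg.ClassPT
import Vale.Agent.P319.NT.Main

/-!
P319: the meaning of the curve algorithm, and the final assembly.
-/

open Polynomial

namespace Vale.Agent.P319

namespace Crv

open Gen Vale.Agent.Lib.Dep

variable {A k : Type} [CommRing A] [Field k] {Q : ℕ} {ψ : A →+* k} [IsAlgClosed k] {C : Cv k}
  {f : A[X]} {z : A} {Z : C.Mu}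

namespace MainAux

omit [IsAlgClosed k] in
theorem ram_congr {a b : k} (ha : C.F.eval a = 0) (hb : C.F.eval b = 0) (e : a = b) :
    Cv.ram a ha = Cv.ram b hb := by subst e; rfl

theorem sum_ram : ∑ a : Rt C, Finsupp.single (Cv.ram a.1 a.2) (1 : ℤ) = C.R := by
  classical
  ext P
  rw [Finsupp.finsetSum_apply]
  by_cases hP : P.IsRam
  · rw [Cv.R_ram hP, Finset.sum_eq_single ⟨P.x0, hP.eval⟩]
    · rw [← hP.eq_ram, Finsupp.single_eq_same]
    · intro b _ hb
      refine Finsupp.single_eq_of_ne fun e => hb (Subtype.ext ?_)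
      exact (congrArg Cv.Pt.x0 e).symm
    · simp
  · rw [Cv.R_unram hP]
    refine Finset.sum_eq_zero fun b _ => Finsupp.single_eq_of_ne fun e => hP ?_
    rw [e]
    exact Cv.isRam_ram _ _

omit [IsAlgClosed k] in
theorem nD_sum {ι : Type} (s : Finset ι) (D : ι → C.Div) :
    C.nD Z (∑ i ∈ s, D i) = ∑ i ∈ s, C.nD Z (D i) := by
  simp only [Cv.nD, Cv.sD, map_sum]
  exact Finset.sum_comm

theorem curve_aux (h : Dat C Q ψ f z Z) (hp : ∀ j : ℕ, 1 ≤ j → j ≤ C.r * C.nu → (j : k) ≠ 0)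
    {g : A} {e n' : ℕ} (hn : C.r * C.nu = C.r ^ e * n')
    (hn' : ¬ C.r ∣ n') {σ : k ≃+* k} (hA : Ari C Q e σ (ψ g)) :
    ∃ c ∈ curve Q C.r C.nu e f z g, ∃ a a' : k, C.F.eval a = 0 ∧ C.F.eval a' = 0 ∧
      (c.map ψ).eval a = 0 ∧ (c.map ψ).eval a' ≠ 0 := by
  have hF := h.F_monic
  have hZ := Cv.Mu.ne_one_of_prim h.prim
  have h3 := C.three_le
  have hdiv : C.r * C.nu / C.r ^ e = n' := by
    rw [hn, Nat.mul_div_cancel_left _ (pow_pos C.r_pos e)]
  have hex : ∀ a : Rt C, ∃ D : C.Div, C.Pres a.1 (mu C.r C.nu) (mB C.r C.nu) D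
      ((chainU Q C.r C.nu e f z g).1.map (h.cmp a)) (m3 (h.cmp a) (chainU Q C.r C.nu e f z g).2) ∧
      Cv.Inv hF Z (Cv.ram a.1 a.2) (e * (C.r - 1)) D := fun a => by
    have ha : C.F.eval (h.cmp a (AdjoinRoot.root (mon f))) = 0 := by rw [h.cmp_root]; exact a.2
    obtain ⟨D, k1, k2⟩ := chain_spec (h.univ hA a) hF (g := AdjoinRoot.of (mon f) g) ha
      (by rw [h.cmp_of]; exact hA) le_rfl
    rw [ram_congr ha a.2 (h.cmp_root a)] at k2
    rw [h.cmp_root] at k1
    exact ⟨D, k1, k2⟩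
  choose D hD hI using hex
  have hP1 : (C.Pone hF).IsInf := trivial
  have hH := Cv.H_eq_nD hZ hP1
  have hcard := card_Rt hF
  have hpos : 0 ≤ C.H - Finsupp.single (C.Pone hF) 1 := by
    rw [sub_nonneg, hH]
    have := Cv.tD_le_nD hZ 1 (D := Finsupp.single (C.Pone hF) 1)
      (Finsupp.single_nonneg.2 zero_le_one)
    rwa [Cv.tD_one] at this
  have hU : (finU Q C.r C.nu e f z g).map ψ =
      ∏ a : Rt C, (chainU Q C.r C.nu e f z g).1.map (h.cmp a) := h.map_nrm1 hp _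
  have hr1 : ((C.r - 1 : ℕ) : ℤ) = C.r - 1 := by omega
  refine final_spec h hA (W := ∑ a, D a + (n' : ℤ) • (C.H - Finsupp.single (C.Pone hF) 1))
    (add_nonneg (Finset.sum_nonneg fun a _ => (hD a).nonneg)
      (zsmul_nonneg hpos (Int.natCast_nonneg _))) ?_ ?_ ?_ ?_ ?_ ?_
  · rw [hU]
    exact Finset.prod_ne_zero_iff.2 fun a _ => (hD a).u_ne
  · rw [hU, map_prod, Cv.div_prod _ _ fun a _ => C.pol_ne (hD a).u_ne, Cv.nD, Cv.sD_add,
      Cv.sD_zsmul, Cv.sD_sub, Cv.sD_H, ← Cv.nD, ← Cv.nD, ← hH, nD_sum,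
      ← Finset.sum_congr rfl fun a _ => (hD a).norm Z h.prim, Finset.sum_add_distrib,
      Finset.sum_const, Finset.card_univ, hcard, finD, hdiv, ← natCast_zsmul]
    push_cast [hr1]
    module
  · have k1 := Cv.Cont.prod Finset.univ fun a _ => (hD a).cont
    have k2 := (cont_piW (B := formInf k C.nu) (Cv.cont_Pone hF) Z (l := 1) (by omega)).pow n'
    have e1 : (m3 ψ (finS Q C.r C.nu e f z g)).map C.ev =
        (∏ a : Rt C, (m3 (h.cmp a) (chainU Q C.r C.nu e f z g).2).map C.ev) *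
          ((piW C.r Z.val (formInf k C.nu) 1).map C.ev) ^ n' := by
      rw [finS, map_mul, map_pow, h.map_nrm3 hp, hdiv, Polynomial.map_mul, Polynomial.map_pow,
        Polynomial.map_prod, coe_mapRingHom, map_piW, map_formInf, h.mapz]
    rw [e1]
    refine (congrArg (C.Cont _) ?_).mp (k1.mul k2)
    rw [Cv.sD_one, Cv.nD, Cv.sD_sub, Cv.sD_zsmul, Cv.sD_H, ← Cv.nD, ← hH, Finset.sum_sub_distrib,
      Finset.sum_const, Finset.card_univ, hcard, finM, hdiv, ← natCast_zsmul, ← natCast_zsmul]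
    push_cast [hr1]
    module
  · intro P hP
    have hne : P ≠ C.Pone hF := fun e => hP.not_inf (by rw [e]; exact hP1)
    rw [Finsupp.add_apply, Finsupp.smul_apply, Finsupp.sub_apply, Cv.H_ram hP,
      Finsupp.single_eq_of_ne hne, sub_zero, smul_zero, add_zero,
      Finsupp.finsetSum_apply, Finset.sum_eq_single ⟨P.x0, hP.eval⟩]
    · rw [← (hD ⟨P.x0, hP.eval⟩).deg]
      exact Cv.le_deg (hD _).nonneg P
    · intro b _ hb
      rw [hP.eq_ram]
      exact (hD b).ram _ _ fun e => hb (Subtype.ext e.symm)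
    · simp
  · have k1 := Cv.Triv.sum (s := Finset.univ) fun a _ => Cv.inv_end h.prim (hI a)
    refine ((k1.sub Cv.triv_R).add (Cv.triv_H.nsmul (C.r * C.nu))).congr ?_
    rw [Finset.sum_sub_distrib, Finset.sum_sub_distrib, sum_ram, Finset.sum_const, Finset.card_univ,
      hcard, ← Finset.smul_sum, hn, natCast_zsmul, smul_add, mul_smul, mul_smul, smul_sub, smul_sub]
    abel
  · rw [map_add, map_sum, Finset.sum_congr rfl fun a _ => (hD a).deg, map_zsmul, map_sub, Cv.deg_H,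
      Cv.deg_single, Finset.sum_const, Finset.card_univ, hcard]
    intro hd
    apply hn'
    rw [← Int.natCast_dvd_natCast]
    obtain ⟨t, ht⟩ := hd
    refine ⟨(C.r * C.nu * mu C.r C.nu : ℕ) + n' - t, ?_⟩
    simp only [nsmul_eq_mul, smul_eq_mul] at ht
    push_cast at ht ⊢
    linear_combination -ht

end MainAux

theorem curveSt : CurveSt :=
  fun _ _ _ _ _ _ _ _ _ _ _ h hp _ _ _ hn hn' _ hA => MainAux.curve_aux h hp hn hn' hA

end Crv

/-- deterministic polynomial time factorization -/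
theorem goal : Goal :=
  Alg.goal_of_curve NT.smallPrime 1 (fun q => Crv.curveP q.1) (fun _ => Crv.curveP_spec Crv.curveSt)
    Crv.dpt_curveP_prime

end Vale.Agent.P319
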