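import Mathlib.Computability.TuringMachine.Computable
import Mathlib.Algebra.Polynomial.Degree.Defs
import Mathlib.Data.ZMod.Basic

/-!
P319: binary codes of the input and the output of polynomial factorization over prime fields.
-/

open Polynomial

namespace Vale.Agent.P319.Stmt

/-- The code of a pair of binary words: every bit `b` of the first word is written as `1 b`, then
comes a `0`, then the second word. -/
def pair : List Bool → List Bool → List Bool
  | [], y => false :: y
  | b :: x, y => true :: b :: pair x y

/-- The code of a list of binary words: nested pairs, ended by the empty word. -/
def codeList : List (List Bool) → List Bool
  | [] => []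
  | w :: l => pair w (codeList l)

/-- The code of a polynomial of degree `n` over the integers modulo `p`: the list of its `n + 1`
coefficients (constant term first), each written as a number less than `p` in binary. -/
noncomputable def codePoly {p : ℕ} (f : (ZMod p)[X]) : List Bool :=
  codeList ((List.range (f.natDegree + 1)).map fun i => (f.coeff i).val.bits)

/-- The code of an input: `p` in binary and the polynomial. -/
noncomputable def codeInput (p : ℕ) (f : (ZMod p)[X]) : List Bool := pair p.bits (codePoly f)

/-- The code of an output: a constant and a list of polynomials with exponents in binary. -/
noncomputable def codeOutput {p : ℕ} (c : ZMod p) (L : List ((ZMod p)[X] × ℕ)) : List Bool :=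
  pair c.val.bits (codeList (L.map fun q => pair (codePoly q.1) q.2.bits))

end Vale.Agent.P319.Stmt
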